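import Vale.Agent.P334.Final

/-!
For every `ε > 0`, metric `k`-median has a deterministic polynomial-time
`(1 + 2 / e + ε)`-approximation algorithm.
-/

open Vale.Agent.P334 Vale.Agent.Lib.PCP

theorem Vale.Agent.Results.P334.Tight.result :
    ∀ ε : ℝ, 0 < ε → ∃ A : Inst → List ℕ, PolyTime A ∧ ∀ I : Inst, I.Valid →
      ∃ h : (A I).toFinset.Nonempty, I.Feasible (A I).toFinset ∧
        ∀ (O : Finset ℕ) (hO : O.Nonempty), I.Feasible O →
          (I.cost (A I).toFinset h : ℝ) ≤ (1 + 2 / Real.exp 1 + ε) * I.cost O hO :=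
  final
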